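import Mathlib

/-!
# Fourier analysis of Boolean functions on the cube `ι → Bool` (helper file of seat H46)

Bits are read as signs: `false ↦ 1`, `true ↦ -1`.
-/

namespace Vale.Agent.H46

open Finset

/-- The sign of a bit: `false ↦ 1`, `true ↦ -1`. -/
def sgn (b : Bool) : ℝ := if b then -1 else 1

/-- The character `χ_S(x) = ∏_{i ∈ S} sgn (x i)` of the cube `ι → Bool`. -/
def chi {ι : Type} (S : Finset ι) (x : ι → Bool) : ℝ := ∏ i ∈ S, sgn (x i)

/-- The Fourier coefficient `f^(S) = E_x [ sgn (f x) * χ_S(x) ]` of a Boolean function,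
`x` uniform on the cube `ι → Bool`. -/
noncomputable def fourier {ι : Type} [Fintype ι] [DecidableEq ι]
    (f : (ι → Bool) → Bool) (S : Finset ι) : ℝ :=
  (∑ x : ι → Bool, sgn (f x) * chi S x) / 2 ^ Fintype.card ι

open Classical in
/-- The degree of a Boolean function: the largest `|S|` with `f^(S) ≠ 0` (and `0` if there is
none). -/
noncomputable def deg {ι : Type} [Fintype ι] [DecidableEq ι] (f : (ι → Bool) → Bool) : ℕ :=
  (Finset.univ.filter (fun S : Finset ι => fourier f S ≠ 0)).sup Finset.card

/-- The level-one sum `∑_i f^({i})`. -/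
noncomputable def levelOne {ι : Type} [Fintype ι] [DecidableEq ι]
    (f : (ι → Bool) → Bool) : ℝ :=
  ∑ i : ι, fourier f {i}

/-! ### signs -/

@[simp] lemma sgn_false : sgn false = 1 := rfl
@[simp] lemma sgn_true : sgn true = -1 := rfl

lemma sgn_mul_self (b : Bool) : sgn b * sgn b = 1 := by cases b <;> simp

lemma sgn_xor (a b : Bool) : sgn (xor a b) = sgn a * sgn b := by
  cases a <;> cases b <;> simp

lemma sgn_not (a : Bool) : sgn (!a) = - sgn a := by cases a <;> simp

lemma sgn_ne_zero (b : Bool) : sgn b ≠ 0 := by cases b <;> simp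

lemma sgn_mul_eq (a b : Bool) : sgn a * sgn b = if a = b then 1 else -1 := by
  cases a <;> cases b <;> simp

lemma sum_bool_sgn : ∑ b : Bool, sgn b = 0 := by simp

/-! ### characters -/

section chars

variable {ι : Type}

@[simp] lemma chi_empty (x : ι → Bool) : chi (∅ : Finset ι) x = 1 := by simp [chi]

@[simp] lemma chi_singleton (i : ι) (x : ι → Bool) : chi ({i} : Finset ι) x = sgn (x i) := by
  simp [chi]

lemma chi_mul_chi (S : Finset ι) (x y : ι → Bool) :
    chi S x * chi S y = ∏ i ∈ S, (sgn (x i) * sgn (y i)) := by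
  simp [chi, Finset.prod_mul_distrib]

variable [Fintype ι] [DecidableEq ι]

lemma sum_chi_mul_chi (x y : ι → Bool) :
    ∑ S : Finset ι, chi S x * chi S y = if x = y then (2 : ℝ) ^ Fintype.card ι else 0 := by
  have h1 : ∑ S : Finset ι, chi S x * chi S y = ∏ i : ι, (1 + sgn (x i) * sgn (y i)) := by
    rw [Finset.prod_one_add, Finset.powerset_univ]
    exact Finset.sum_congr rfl (fun S _ => chi_mul_chi S x y)
  rw [h1]
  split_ifs with h
  · subst h
    simp [sgn_mul_self]
    norm_num
  · obtain ⟨i, hi⟩ := Function.ne_iff.mp h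
    apply Finset.prod_eq_zero (Finset.mem_univ i)
    rw [sgn_mul_eq, if_neg hi]
    norm_num

/-- Fourier inversion on the cube. -/
lemma fourier_inversion (f : (ι → Bool) → Bool) (x : ι → Bool) :
    sgn (f x) = ∑ S : Finset ι, fourier f S * chi S x := by
  have hpos : (2 : ℝ) ^ Fintype.card ι ≠ 0 := by positivity
  have : ∑ S : Finset ι, fourier f S * chi S x
      = (∑ y : ι → Bool, sgn (f y) * ∑ S : Finset ι, chi S y * chi S x) / 2 ^ Fintype.card ι := by
    simp only [fourier, div_mul_eq_mul_div, ← Finset.sum_div, Finset.sum_mul, Finset.mul_sum]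
    rw [Finset.sum_comm]
    congr 1
    refine Finset.sum_congr rfl (fun y _ => Finset.sum_congr rfl (fun S _ => ?_))
    ring
  rw [this]
  simp only [sum_chi_mul_chi, mul_ite, mul_zero, Finset.sum_ite_eq', Finset.mem_univ, if_true]
  field_simp

end chars

end Vale.Agent.H46
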