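import Vale.Agent.H46.BoolFourier

/-!
# Composition of Boolean functions and its Fourier coefficients (helper file of seat H46)
-/

namespace Vale.Agent.H46

open Finset

section sums

variable {κ : Type} [Fintype κ] [DecidableEq κ]

lemma chi_eq_prod_univ (U : Finset κ) (z : κ → Bool) :
    chi U z = ∏ j : κ, (if j ∈ U then sgn (z j) else 1) := by
  rw [chi, Fintype.prod_ite_mem]

/-- The sum of a character over the cube. -/
lemma sum_chi (U : Finset κ) :
    ∑ z : κ → Bool, chi U z = if U = ∅ then (2 : ℝ) ^ Fintype.card κ else 0 := by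
  have h1 : ∑ z : κ → Bool, chi U z = ∏ j : κ, ∑ b : Bool, (if j ∈ U then sgn b else 1) := by
    rw [Fintype.prod_sum]
    exact Finset.sum_congr rfl (fun z _ => chi_eq_prod_univ U z)
  rw [h1]
  split_ifs with h
  · subst h
    simp
  · obtain ⟨j, hj⟩ := Finset.nonempty_iff_ne_empty.mpr h
    apply Finset.prod_eq_zero (Finset.mem_univ j)
    simp [hj]

lemma sum_sgn_mul_chi (g : (κ → Bool) → Bool) (U : Finset κ) :
    ∑ z : κ → Bool, sgn (g z) * chi U z = 2 ^ Fintype.card κ * fourier g U := by
  have hpos : (2 : ℝ) ^ Fintype.card κ ≠ 0 := by positivity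
  rw [fourier]
  field_simp

end sums

variable {ι κ : Type} [Fintype ι] [DecidableEq ι] [Fintype κ] [DecidableEq κ]

/-- Composition of Boolean functions: `comp f g x = f (i ↦ g (j ↦ x (i, j)))`. -/
def comp (f : (ι → Bool) → Bool) (g : (κ → Bool) → Bool) : (ι × κ → Bool) → Bool :=
  fun x => f (fun i => g (fun j => x (i, j)))

/-- The fiber of `T ⊆ ι × κ` over `i`. -/
def fiber (T : Finset (ι × κ)) (i : ι) : Finset κ := Finset.univ.filter (fun j => (i, j) ∈ T)

/-- The set of `i` with nonempty fiber. -/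
def fsupp (T : Finset (ι × κ)) : Finset ι := Finset.univ.filter (fun i => fiber T i ≠ ∅)

lemma mem_fiber (T : Finset (ι × κ)) (i : ι) (j : κ) : j ∈ fiber T i ↔ (i, j) ∈ T := by
  simp [fiber]

lemma chi_prod (T : Finset (ι × κ)) (x : ι × κ → Bool) :
    chi T x = ∏ i : ι, chi (fiber T i) (fun j => x (i, j)) := by
  rw [chi, ← Fintype.prod_ite_mem, Fintype.prod_prod_type]
  refine Finset.prod_congr rfl (fun i _ => ?_)
  rw [chi_eq_prod_univ]
  refine Finset.prod_congr rfl (fun j _ => ?_)
  simp [mem_fiber]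

lemma card_eq_sum_fiber (T : Finset (ι × κ)) : T.card = ∑ i : ι, (fiber T i).card := by
  have h1 : T.card = ∑ p : ι × κ, (if p ∈ T then 1 else 0) := by
    rw [Finset.sum_ite_mem, Finset.univ_inter]; simp
  rw [h1, Fintype.sum_prod_type]
  refine Finset.sum_congr rfl (fun i _ => ?_)
  rw [fiber, Finset.card_filter]

/-- The Fourier coefficients of a composition. -/
lemma fourier_comp (f : (ι → Bool) → Bool) (g : (κ → Bool) → Bool) (T : Finset (ι × κ)) :
    fourier (comp f g) T = ∑ S : Finset ι, fourier f S *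
      ∏ i : ι, (if i ∈ S then fourier g (fiber T i) else (if fiber T i = ∅ then 1 else 0)) := by
  have hpos : (2 : ℝ) ^ Fintype.card κ ≠ 0 := by positivity
  -- reindex the sum over the big cube
  have h1 : ∑ x : ι × κ → Bool, sgn (comp f g x) * chi T x
      = ∑ y : ι → κ → Bool, sgn (f (fun i => g (y i))) * ∏ i : ι, chi (fiber T i) (y i) := by
    refine Fintype.sum_equiv (Equiv.curry ι κ Bool) _ _ (fun x => ?_)
    rw [chi_prod]
    rfl
  -- expand the outer function
  have h2 : ∀ y : ι → κ → Bool,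
      sgn (f (fun i => g (y i))) * ∏ i : ι, chi (fiber T i) (y i)
      = ∑ S : Finset ι, fourier f S *
          ∏ i : ι, ((if i ∈ S then sgn (g (y i)) else 1) * chi (fiber T i) (y i)) := by
    intro y
    rw [fourier_inversion f, Finset.sum_mul]
    refine Finset.sum_congr rfl (fun S _ => ?_)
    rw [Finset.prod_mul_distrib, Fintype.prod_ite_mem, chi, mul_assoc]
  have h3 : ∀ S : Finset ι,
      ∑ y : ι → κ → Bool, ∏ i : ι, ((if i ∈ S then sgn (g (y i)) else 1) * chi (fiber T i) (y i))
      = ∏ i : ι, (2 ^ Fintype.card κ *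
          (if i ∈ S then fourier g (fiber T i) else (if fiber T i = ∅ then 1 else 0))) := by
    intro S
    rw [← Fintype.prod_sum (fun (i : ι) (z : κ → Bool) =>
      (if i ∈ S then sgn (g z) else 1) * chi (fiber T i) z)]
    refine Finset.prod_congr rfl (fun i _ => ?_)
    split_ifs with hi hf
    · exact sum_sgn_mul_chi g (fiber T i)
    · simp [sum_chi, hf]
    · simp [sum_chi, hf]
  rw [fourier, h1]
  simp only [h2]
  rw [Finset.sum_comm]
  simp only [← Finset.mul_sum, h3]
  rw [Finset.sum_div]
  refine Finset.sum_congr rfl (fun S _ => ?_)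
  rw [Finset.prod_mul_distrib, Finset.prod_const, Finset.card_univ, Fintype.card_prod, pow_mul']
  have hpos' : ((2 : ℝ) ^ Fintype.card κ) ^ Fintype.card ι ≠ 0 := by positivity
  field_simp

/-- With a balanced inner function only one term survives. -/
lemma fourier_comp_balanced (f : (ι → Bool) → Bool) (g : (κ → Bool) → Bool)
    (hg : fourier g ∅ = 0) (T : Finset (ι × κ)) :
    fourier (comp f g) T = fourier f (fsupp T) * ∏ i ∈ fsupp T, fourier g (fiber T i) := by
  rw [fourier_comp]
  rw [Finset.sum_eq_single (fsupp T)]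
  · congr 1
    rw [fsupp, Finset.prod_filter]
    refine Finset.prod_congr rfl (fun i _ => ?_)
    by_cases h : fiber T i = ∅ <;> simp [h]
  · intro S _ hS
    have : ∃ i, ¬ (i ∈ S ↔ i ∈ fsupp T) := by
      by_contra hcon
      exact hS (Finset.ext (fun i => not_not.mp (fun h => hcon ⟨i, h⟩)))
    obtain ⟨i, hi⟩ := this
    apply mul_eq_zero_of_right
    apply Finset.prod_eq_zero (Finset.mem_univ i)
    by_cases h1 : i ∈ S
    · have h2 : fiber T i = ∅ := by
        by_contra h2
        exact hi ⟨fun _ => by simp [fsupp, h2], fun _ => h1⟩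
      simp [h1, h2, hg]
    · have h2 : fiber T i ≠ ∅ := by
        intro h2
        exact hi ⟨fun h => absurd h h1, fun h => by simp [fsupp, h2] at h⟩
      simp [h1, h2]
  · intro h
    exact absurd (Finset.mem_univ _) h

lemma fourier_comp_empty (f : (ι → Bool) → Bool) (g : (κ → Bool) → Bool)
    (hg : fourier g ∅ = 0) :
    fourier (comp f g) ∅ = fourier f ∅ := by
  rw [fourier_comp_balanced f g hg]
  have : fsupp (∅ : Finset (ι × κ)) = ∅ := by
    simp [fsupp, fiber]
  rw [this]
  simp

lemma fourier_comp_singleton (f : (ι → Bool) → Bool) (g : (κ → Bool) → Bool)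
    (hg : fourier g ∅ = 0) (i : ι) (j : κ) :
    fourier (comp f g) {(i, j)} = fourier f {i} * fourier g {j} := by
  rw [fourier_comp_balanced f g hg]
  have hfib : ∀ i' : ι, fiber ({(i, j)} : Finset (ι × κ)) i' = if i' = i then {j} else ∅ := by
    intro i'
    ext j'
    by_cases h : i' = i
    · subst h
      simp [mem_fiber]
    · simp [mem_fiber, h]
  have hsupp : fsupp ({(i, j)} : Finset (ι × κ)) = {i} := by
    ext i'
    by_cases h : i' = i
    · subst h
      simp [fsupp, hfib]
    · simp [fsupp, hfib, h]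
  rw [hsupp]
  simp [hfib]

lemma levelOne_comp (f : (ι → Bool) → Bool) (g : (κ → Bool) → Bool)
    (hg : fourier g ∅ = 0) :
    levelOne (comp f g) = levelOne f * levelOne g := by
  simp only [levelOne]
  rw [Fintype.sum_prod_type, Finset.sum_mul_sum]
  refine Finset.sum_congr rfl (fun i _ => Finset.sum_congr rfl (fun j _ => ?_))
  exact fourier_comp_singleton f g hg i j

lemma card_le_deg (f : (ι → Bool) → Bool) (S : Finset ι) (h : fourier f S ≠ 0) :
    S.card ≤ deg f := by
  classical
  rw [deg]
  exact Finset.le_sup (f := Finset.card) (by simp [h])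

lemma deg_le_iff (f : (ι → Bool) → Bool) (d : ℕ) :
    deg f ≤ d ↔ ∀ S : Finset ι, fourier f S ≠ 0 → S.card ≤ d := by
  classical
  rw [deg, Finset.sup_le_iff]
  simp

lemma deg_comp_le (f : (ι → Bool) → Bool) (g : (κ → Bool) → Bool)
    (hg : fourier g ∅ = 0) :
    deg (comp f g) ≤ deg f * deg g := by
  rw [deg_le_iff]
  intro T hT
  rw [fourier_comp_balanced f g hg] at hT
  have h1 : fourier f (fsupp T) ≠ 0 := left_ne_zero_of_mul hT
  have h2 : ∀ i ∈ fsupp T, fourier g (fiber T i) ≠ 0 :=
    Finset.prod_ne_zero_iff.mp (right_ne_zero_of_mul hT)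
  have h3 : T.card = ∑ i ∈ fsupp T, (fiber T i).card := by
    rw [card_eq_sum_fiber, fsupp, Finset.sum_filter]
    refine Finset.sum_congr rfl (fun i _ => ?_)
    by_cases h : fiber T i = ∅ <;> simp [h]
  rw [h3]
  calc ∑ i ∈ fsupp T, (fiber T i).card ≤ ∑ i ∈ fsupp T, deg g :=
        Finset.sum_le_sum (fun i hi => card_le_deg g _ (h2 i hi))
    _ = (fsupp T).card * deg g := by simp
    _ ≤ deg f * deg g := Nat.mul_le_mul_right _ (card_le_deg f _ h1)

end Vale.Agent.H46
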