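import Vale.Agent.H46.Compose

/-!
# Reindexing and the odd extension of a Boolean function (helper file of seat H46)
-/

namespace Vale.Agent.H46

open Finset

variable {ι κ : Type} [Fintype ι] [DecidableEq ι] [Fintype κ] [DecidableEq κ]

/-! ### reindexing along an equivalence -/

/-- Transport a Boolean function along an equivalence of index types. -/
def reindex (e : ι ≃ κ) (f : (ι → Bool) → Bool) : (κ → Bool) → Bool :=
  fun x => f (fun i => x (e i))

lemma fourier_reindex (e : ι ≃ κ) (f : (ι → Bool) → Bool) (T : Finset κ) :
    fourier (reindex e f) T = fourier f (T.map e.symm.toEmbedding) := by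
  rw [fourier, fourier, Fintype.card_congr e]
  congr 1
  refine Fintype.sum_equiv (e.symm.arrowCongr (Equiv.refl Bool)) _ _ (fun x => ?_)
  have h1 : (e.symm.arrowCongr (Equiv.refl Bool)) x = fun i => x (e i) := by
    funext i
    simp [Equiv.arrowCongr]
  rw [h1]
  simp [reindex, chi, Finset.prod_map]

lemma levelOne_reindex (e : ι ≃ κ) (f : (ι → Bool) → Bool) :
    levelOne (reindex e f) = levelOne f := by
  simp only [levelOne, fourier_reindex, Finset.map_singleton, Equiv.coe_toEmbedding]
  exact Equiv.sum_comp e.symm (fun i => fourier f {i})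

lemma deg_reindex_le (e : ι ≃ κ) (f : (ι → Bool) → Bool) :
    deg (reindex e f) ≤ deg f := by
  rw [deg_le_iff]
  intro T hT
  rw [fourier_reindex] at hT
  have := card_le_deg f _ hT
  simpa using this

/-! ### the odd extension -/

/-- The odd extension of `f` with sign `s`: in sign notation `(x, y) ↦ s y f(s y x)`,
where `y` is the new variable `none`. -/
def oddify (s : Bool) (f : (ι → Bool) → Bool) : (Option ι → Bool) → Bool :=
  fun x => xor (xor s (x none)) (f (fun i => xor (xor s (x none)) (x (some i))))

lemma chi_option (T : Finset (Option ι)) (x : Option ι → Bool) :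
    chi T x = (if none ∈ T then sgn (x none) else 1) * chi T.eraseNone (fun i => x (some i)) := by
  rw [chi_eq_prod_univ, Fintype.prod_option, chi_eq_prod_univ]
  simp [Finset.mem_eraseNone]

omit [Fintype ι] [DecidableEq ι] in
lemma chi_xor (U : Finset ι) (b : Bool) (z : ι → Bool) :
    chi U (fun i => xor b (z i)) = sgn b ^ U.card * chi U z := by
  simp [chi, sgn_xor, Finset.prod_mul_distrib, Finset.prod_const]

/-- Flipping all coordinates by `b`, as an equivalence of the cube. -/
def xorEquiv (b : Bool) : (ι → Bool) ≃ (ι → Bool) where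
  toFun z := fun i => xor b (z i)
  invFun z := fun i => xor b (z i)
  left_inv z := by funext i; simp
  right_inv z := by funext i; simp

lemma sum_oddify_inner (b : Bool) (c : ℝ) (f : (ι → Bool) → Bool) (U : Finset ι) :
    ∑ x' : ι → Bool, sgn (xor b (f (fun i => xor b (x' i)))) * (c * chi U x')
      = sgn b ^ (U.card + 1) * c * ∑ z : ι → Bool, sgn (f z) * chi U z := by
  have h1 : ∑ x' : ι → Bool, sgn (xor b (f (fun i => xor b (x' i)))) * (c * chi U x')
      = ∑ x' : ι → Bool, (fun z : ι → Bool =>
          sgn (xor b (f z)) * (c * chi U (fun i => xor b (z i)))) (xorEquiv b x') := by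
    refine Finset.sum_congr rfl (fun x' _ => ?_)
    simp [xorEquiv]
  rw [h1, Equiv.sum_comp (xorEquiv b)
    (fun z : ι → Bool => sgn (xor b (f z)) * (c * chi U (fun i => xor b (z i))))]
  rw [Finset.mul_sum]
  refine Finset.sum_congr rfl (fun z _ => ?_)
  rw [sgn_xor, chi_xor]
  ring

lemma sum_oddify (s : Bool) (f : (ι → Bool) → Bool) (T : Finset (Option ι)) :
    ∑ x : Option ι → Bool, sgn (oddify s f x) * chi T x
      = (if Odd T.card then 2 * sgn s ^ (T.eraseNone.card + 1) else 0)
          * ∑ z : ι → Bool, sgn (f z) * chi T.eraseNone z := by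
  have h1 : ∑ x : Option ι → Bool, sgn (oddify s f x) * chi T x
      = ∑ p : Bool × (ι → Bool),
          sgn (xor (xor s p.1) (f (fun i => xor (xor s p.1) (p.2 i))))
            * ((if none ∈ T then sgn p.1 else 1) * chi T.eraseNone p.2) := by
    refine Fintype.sum_equiv Equiv.piOptionEquivProd _ _ (fun x => ?_)
    rw [chi_option]
    rfl
  rw [h1, Fintype.sum_prod_type]
  simp only [sum_oddify_inner]
  rw [Fintype.sum_bool, ← add_mul]
  congr 1
  simp only [Bool.xor_true, Bool.xor_false, sgn_not, sgn_true, sgn_false]
  by_cases hT : none ∈ T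
  · have hc : T.card = T.eraseNone.card + 1 := by
      have h0 := Finset.card_eraseNone_of_mem hT
      have h2 : 0 < T.card := Finset.card_pos.mpr ⟨none, hT⟩
      omega
    rw [hc]
    simp only [hT, if_true]
    rcases Nat.even_or_odd T.eraseNone.card with hm | hm
    · have h3 : Odd (T.eraseNone.card + 1) := hm.add_one
      rw [if_pos h3, h3.neg_pow]
      ring
    · have h3 : Even (T.eraseNone.card + 1) := hm.add_one
      rw [if_neg (by rw [Nat.not_odd_iff_even]; exact h3), h3.neg_pow]
      ring
  · have hc : T.card = T.eraseNone.card := (Finset.card_eraseNone_of_not_mem hT).symm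
    rw [hc]
    simp only [hT, if_false]
    rcases Nat.even_or_odd T.eraseNone.card with hm | hm
    · have h3 : Odd (T.eraseNone.card + 1) := hm.add_one
      rw [if_neg (by rw [Nat.not_odd_iff_even]; exact hm), h3.neg_pow]
      ring
    · have h3 : Even (T.eraseNone.card + 1) := hm.add_one
      rw [if_pos hm, h3.neg_pow]
      ring

lemma fourier_oddify (s : Bool) (f : (ι → Bool) → Bool) (T : Finset (Option ι)) :
    fourier (oddify s f) T
      = if Odd T.card then sgn s ^ (T.eraseNone.card + 1) * fourier f T.eraseNone else 0 := by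
  have hpos : (2 : ℝ) ^ Fintype.card ι ≠ 0 := by positivity
  rw [fourier, sum_oddify, Fintype.card_option, fourier]
  split_ifs with h
  · field_simp
    ring
  · simp

lemma fourier_oddify_empty (s : Bool) (f : (ι → Bool) → Bool) :
    fourier (oddify s f) ∅ = 0 := by
  rw [fourier_oddify]
  simp

lemma levelOne_oddify (s : Bool) (f : (ι → Bool) → Bool) :
    levelOne (oddify s f) = levelOne f + sgn s * fourier f ∅ := by
  simp only [levelOne]
  rw [Fintype.sum_option, add_comm]
  congr 1
  · refine Finset.sum_congr rfl (fun i _ => ?_)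
    rw [fourier_oddify]
    have h1 : (({some i} : Finset (Option ι))).eraseNone = {i} := by
      ext j
      simp [Finset.mem_eraseNone]
    rw [h1]
    simp [pow_two, sgn_mul_self]
  · rw [fourier_oddify]
    simp

lemma deg_oddify_le (s : Bool) (f : (ι → Bool) → Bool) :
    deg (oddify s f) ≤ deg f + 1 := by
  rw [deg_le_iff]
  intro T hT
  rw [fourier_oddify] at hT
  split_ifs at hT with h
  · have h1 : fourier f T.eraseNone ≠ 0 := right_ne_zero_of_mul hT
    have h2 := card_le_deg f _ h1
    by_cases hn : none ∈ T
    · have := Finset.card_eraseNone_of_mem hn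
      omega
    · have := Finset.card_eraseNone_of_not_mem hn
      omega
  · exact absurd rfl hT

lemma deg_oddify_le_of_odd (s : Bool) (f : (ι → Bool) → Bool) (hd : Odd (deg f)) :
    deg (oddify s f) ≤ deg f := by
  rw [deg_le_iff]
  intro T hT
  rw [fourier_oddify] at hT
  split_ifs at hT with h
  · have h1 : fourier f T.eraseNone ≠ 0 := right_ne_zero_of_mul hT
    have h2 := card_le_deg f _ h1
    by_cases hn : none ∈ T
    · have h3 := Finset.card_eraseNone_of_mem hn
      have h4 : 0 < T.card := Finset.card_pos.mpr ⟨none, hn⟩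
      by_contra hcon
      have h5 : T.eraseNone.card = deg f := by omega
      have h6 : T.card = deg f + 1 := by omega
      rw [h6] at h
      exact (Nat.not_even_iff_odd.mpr h) hd.add_one
    · have := Finset.card_eraseNone_of_not_mem hn
      omega
  · exact absurd rfl hT

end Vale.Agent.H46
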