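import Vale.Agent.H46.Oddify

/-!
# The tensor-power trick for level-one sums (helper file of seat H46)
-/

namespace Vale.Agent.H46

open Finset

/-- Iterated composition of a balanced Boolean function with itself. -/
lemma exists_power {κ : Type} [Fintype κ] [DecidableEq κ] (g : (κ → Bool) → Bool)
    (hg : fourier g ∅ = 0) (k : ℕ) :
    ∃ (ι : Type) (_ : Fintype ι) (_ : DecidableEq ι) (h : (ι → Bool) → Bool),
      fourier h ∅ = 0 ∧ levelOne h = levelOne g ^ (k + 1) ∧ deg h ≤ deg g ^ (k + 1) := by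
  induction k with
  | zero => exact ⟨κ, inferInstance, inferInstance, g, hg, by simp, by simp⟩
  | succ k ih =>
    obtain ⟨ι, hF, hD, h, h0, h1, h2⟩ := ih
    refine ⟨κ × ι, inferInstance, inferInstance, comp g h, ?_, ?_, ?_⟩
    · rw [fourier_comp_empty g h h0, hg]
    · rw [levelOne_comp g h h0, h1]
      ring
    · calc deg (comp g h) ≤ deg g * deg h := deg_comp_le g h h0
        _ ≤ deg g * deg g ^ (k + 1) := Nat.mul_le_mul_left _ h2
        _ = deg g ^ (k + 1 + 1) := by ring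

/-- A bound for cubes `Fin n → Bool` transfers to all finite index types. -/
lemma weak_transfer (C : ℝ)
    (hC : ∀ (n : ℕ) (f : (Fin n → Bool) → Bool), levelOne f ≤ C * Real.sqrt (deg f))
    {ι : Type} [Fintype ι] [DecidableEq ι] (h : (ι → Bool) → Bool) :
    levelOne h ≤ max C 0 * Real.sqrt (deg h) := by
  have e := Fintype.equivFin ι
  have h1 := hC _ (reindex e h)
  rw [levelOne_reindex] at h1
  have h2 : Real.sqrt (deg (reindex e h)) ≤ Real.sqrt (deg h) :=
    Real.sqrt_le_sqrt (by exact_mod_cast deg_reindex_le e h)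
  calc levelOne h ≤ C * Real.sqrt (deg (reindex e h)) := h1
    _ ≤ max C 0 * Real.sqrt (deg (reindex e h)) :=
        mul_le_mul_of_nonneg_right (le_max_left _ _) (Real.sqrt_nonneg _)
    _ ≤ max C 0 * Real.sqrt (deg h) :=
        mul_le_mul_of_nonneg_left h2 (le_max_right _ _)

/-- The tensor-power trick: under the weak bound, every balanced Boolean function satisfies the
strong bound. -/
lemma balanced_bound (C : ℝ)
    (hC : ∀ (n : ℕ) (f : (Fin n → Bool) → Bool), levelOne f ≤ C * Real.sqrt (deg f))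
    {κ : Type} [Fintype κ] [DecidableEq κ] (g : (κ → Bool) → Bool) (hg : fourier g ∅ = 0) :
    levelOne g ≤ Real.sqrt (deg g) := by
  by_contra hcon
  rw [not_le] at hcon
  set a := levelOne g with ha
  set d : ℝ := (deg g : ℝ) with hd
  have hd0 : 0 ≤ d := Nat.cast_nonneg _
  have ha0 : 0 < a := lt_of_le_of_lt (Real.sqrt_nonneg _) hcon
  have hda : d < a ^ 2 := (Real.sqrt_lt' ha0).mp hcon
  set C' := max C 0 with hC'
  have hC'0 : 0 ≤ C' := le_max_right _ _
  -- the key inequality for all powers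
  have key : ∀ k : ℕ, (a ^ 2) ^ (k + 1) ≤ C' ^ 2 * d ^ (k + 1) := by
    intro k
    obtain ⟨ι, hF, hD, h, h0, h1, h2⟩ := exists_power g hg k
    have h3 := weak_transfer C hC h
    rw [h1] at h3
    have h4 : (0 : ℝ) ≤ a ^ (k + 1) := pow_nonneg ha0.le _
    have h5 : (a ^ (k + 1)) ^ 2 ≤ (C' * Real.sqrt (deg h)) ^ 2 :=
      pow_le_pow_left₀ h4 h3 2
    rw [mul_pow, Real.sq_sqrt (Nat.cast_nonneg _)] at h5
    have h6 : ((deg h : ℕ) : ℝ) ≤ d ^ (k + 1) := by
      rw [hd]
      exact_mod_cast h2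
    calc (a ^ 2) ^ (k + 1) = (a ^ (k + 1)) ^ 2 := by ring
      _ ≤ C' ^ 2 * (deg h : ℝ) := h5
      _ ≤ C' ^ 2 * d ^ (k + 1) := mul_le_mul_of_nonneg_left h6 (sq_nonneg _)
  rcases hd0.eq_or_lt with hd1 | hd1
  · -- degree zero
    have := key 0
    rw [← hd1] at this
    simp at this
    nlinarith [sq_nonneg a]
  · have hr : 1 < a ^ 2 / d := by rw [one_lt_div hd1]; exact hda
    obtain ⟨n, hn⟩ := pow_unbounded_of_one_lt (C' ^ 2) hr
    have h7 : (a ^ 2 / d) ^ n ≤ (a ^ 2 / d) ^ (n + 1) :=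
      pow_le_pow_right₀ hr.le (Nat.le_succ n)
    have h8 := key n
    have h9 : (a ^ 2 / d) ^ (n + 1) ≤ C' ^ 2 := by
      rw [div_pow, div_le_iff₀ (pow_pos hd1 _)]
      exact h8
    linarith

end Vale.Agent.H46
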